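import Vale.Agent.P099.Main1

open MeasureTheory Set

namespace Vale.Agent.Results.P099.DirectionInvariantSets

open Vale.Agent.P099

/-- In every irrational triangle, a measurable set of phase points that is described by the
direction alone (`Q × D`) and is invariant modulo null sets under the billiard flow has
measure `0` or `1`. -/
theorem result (T : Triangle) (hT : ¬ T.Rational) (D : Set Dir) (hD : MeasurableSet D)
    (hinv : T.Invariant (T.Q ×ˢ D)) : T.μ (T.Q ×ˢ D) = 0 ∨ T.μ (T.Q ×ˢ D) = 1 :=
  main T hT D hD hinv

end Vale.Agent.Results.P099.DirectionInvariantSets
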